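import Vale.Agent.P272.K.AMP.NF.Defs
import Vale.Agent.P272.K.T4.Hom

/-! AMP-NF, block N3: the coercivity inequality with test functions vanishing on the zero
section. -/

open scoped Manifold ContDiff ComplexOrder Topology Matrix
open Set Filter MeasureTheory

set_option linter.all false

noncomputable section

namespace Vale.Agent.P272.K.AMP.NF

open T4 LIN

variable {n : ℕ} {X : Type*} [TopologicalSpace X] [ChartedSpace (Cm n) X]
  {h : Chart n X → Cm n → Matrix (Fin n) (Fin n) ℂ} {e e' : Chart n X} {x : X}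
  {F : Chart n X → Cm n → Cm n → ℝ}

/-- restriction to the zero section -/
def zs (F : Chart n X → Cm n → Cm n → ℝ) (e : Chart n X) (z _w : Cm n) : ℝ := F e z 0

lemma zs_smTFun (hF : SmTFun F) : SmTFun (zs F) where
  change e e' x w hx hx' := by
    have := hF.change e e' x 0 hx hx'
    simpa [zs, Matrix.mulVec_zero] using this
  smooth e x w hx := by
    have h1 := hF.smooth e x 0 hx
    have h2 : ContDiffAt ℝ ∞ (fun p : Cm n × Cm n => ((p.1, 0) : Cm n × Cm n)) (e x, w) :=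
      contDiffAt_fst.prodMk contDiffAt_const
    exact ContDiffAt.comp (e x, w) (g := fun p : Cm n × Cm n => F e p.1 p.2)
      (f := fun p : Cm n × Cm n => ((p.1, 0) : Cm n × Cm n)) h1 h2

/-- the differential of a function constant on the fibres -/
lemma fderiv_zs (hF : SmTFun F) (hx : At e x) (w a b : Cm n) :
    fderiv ℝ (fun p : Cm n × Cm n => zs F e p.1 p.2) (e x, w) (a, b) =
      fderiv ℝ (fun p : Cm n × Cm n => F e p.1 p.2) (e x, 0) (a, 0) := by
  have h1 : DifferentiableAt ℝ (fun p : Cm n × Cm n => F e p.1 p.2) (e x, 0) :=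
    (hF.smooth e x 0 hx).differentiableAt (by simp)
  have h2 : HasFDerivAt (fun p : Cm n × Cm n => ((p.1, 0) : Cm n × Cm n))
      ((ContinuousLinearMap.fst ℝ (Cm n) (Cm n)).prod 0) (e x, w) :=
    (hasFDerivAt_fst (p := ((e x, w) : Cm n × Cm n))).prodMk (hasFDerivAt_const _ _)
  have h3 : HasFDerivAt (fun p : Cm n × Cm n => zs F e p.1 p.2)
      ((fderiv ℝ (fun p : Cm n × Cm n => F e p.1 p.2) (e x, 0)).comp
        ((ContinuousLinearMap.fst ℝ (Cm n) (Cm n)).prod 0)) (e x, w) :=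
    HasFDerivAt.comp (e x, w) (g := fun p : Cm n × Cm n => F e p.1 p.2)
      (f := fun p : Cm n × Cm n => ((p.1, 0) : Cm n × Cm n)) h1.hasFDerivAt h2
  rw [h3.fderiv]
  simp

lemma Wd_zs (hF : SmTFun F) (hx : At e x) (w v : Cm n) : Wd (zs F) e (e x) w v = 0 := by
  unfold Wd
  rw [fderiv_zs hF hx]
  exact map_zero _

lemma Yd_zs (hF : SmTFun F) (hx : At e x) (b : ℂ) (w : Cm n) : Yd h b (zs F) e (e x) w =
    fderiv ℝ (fun p : Cm n × Cm n => F e p.1 p.2) (e x, 0) (b • w, 0) := by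
  unfold Yd spray
  rw [fderiv_zs hF hx]

lemma Yd_zs_smul (hF : SmTFun F) (hx : At e x) (b : ℂ) (w : Cm n) (r : ℝ) :
    Yd h b (zs F) e (e x) (r • w) = r * Yd h b (zs F) e (e x) w := by
  rw [Yd_zs hF hx, Yd_zs hF hx]
  have : ((b • r • w, 0) : Cm n × Cm n) = r • (b • w, 0) := by
    rw [Prod.smul_mk, smul_zero, smul_comm]
  rw [this, map_smul, smul_eq_mul]

section lin
variable {F G : Chart n X → Cm n → Cm n → ℝ}

lemma Yd_corr (hF : SmTFun F) (hx : At e x) (b : ℂ) (w : Cm n) :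
    Yd h b (fun e z w => 2 * (F e z w - zs F e z w)) e (e x) w =
      2 * (Yd h b F e (e x) w - Yd h b (zs F) e (e x) w) := by
  unfold Yd
  have h1 : DifferentiableAt ℝ (fun p : Cm n × Cm n => F e p.1 p.2) (e x, w) :=
    (hF.smooth e x w hx).differentiableAt (by simp)
  have h2 : DifferentiableAt ℝ (fun p : Cm n × Cm n => zs F e p.1 p.2) (e x, w) :=
    ((zs_smTFun hF).smooth e x w hx).differentiableAt (by simp)
  have h3 : HasFDerivAt (fun p : Cm n × Cm n => 2 * (F e p.1 p.2 - zs F e p.1 p.2))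
      ((2 : ℝ) • (fderiv ℝ (fun p : Cm n × Cm n => F e p.1 p.2) (e x, w) -
        fderiv ℝ (fun p : Cm n × Cm n => zs F e p.1 p.2) (e x, w))) (e x, w) :=
    (h1.hasFDerivAt.sub h2.hasFDerivAt).const_mul 2
  rw [h3.fderiv]
  simp

lemma Wd_corr (hF : SmTFun F) (hx : At e x) (w v : Cm n) :
    Wd (fun e z w => 2 * (F e z w - zs F e z w)) e (e x) w v = 2 * Wd F e (e x) w v := by
  have h1 : DifferentiableAt ℝ (fun p : Cm n × Cm n => F e p.1 p.2) (e x, w) :=
    (hF.smooth e x w hx).differentiableAt (by simp)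
  have h2 : DifferentiableAt ℝ (fun p : Cm n × Cm n => zs F e p.1 p.2) (e x, w) :=
    ((zs_smTFun hF).smooth e x w hx).differentiableAt (by simp)
  have h3 : HasFDerivAt (fun p : Cm n × Cm n => 2 * (F e p.1 p.2 - zs F e p.1 p.2))
      ((2 : ℝ) • (fderiv ℝ (fun p : Cm n × Cm n => F e p.1 p.2) (e x, w) -
        fderiv ℝ (fun p : Cm n × Cm n => zs F e p.1 p.2) (e x, w))) (e x, w) :=
    (h1.hasFDerivAt.sub h2.hasFDerivAt).const_mul 2
  have h4 := Wd_zs hF hx w v
  unfold Wd at h4 ⊢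
  rw [h3.fderiv]
  simp [h4]

end lin

variable [IsManifold 𝓘(ℂ, Cm n) ω X]

/-- the differential on the zero section is bounded -/
lemma exists_Yd_zs_bound (𝒞 : Cov (Cm n) X) (hh : IsHermitian h) (hF : SmTFun F) (b : ℂ) :
    ∃ B, 0 ≤ B ∧ ∀ e x w, At e x → |Yd h b (zs F) e (e x) w| ≤ B * √(nq h e (e x) w) := by
  obtain ⟨B, hB, hb⟩ := exists_bound_unit 𝒞 hh (Yd_smTFun hh (zs_smTFun hF) b)
  refine ⟨B, hB, fun e x w hx => ?_⟩
  by_cases hw : w = 0
  · subst hw
    have h1 : Yd h b (zs F) e (e x) 0 = 0 := by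
      rw [Yd_zs hF hx, smul_zero]
      exact map_zero _
    rw [h1, abs_zero]
    positivity
  · have hq : 0 < nq h e (e x) w := by
      have := (hh.posDef e x hx)
      exact quad_pos this hw
    set r := √(nq h e (e x) w) with hr
    have hr0 : 0 < r := Real.sqrt_pos.2 hq
    have h1 : nq h e (e x) (r⁻¹ • w) = 1 := by
      have h2 : nq h e (e x) (r⁻¹ • w) = r⁻¹ ^ 2 * nq h e (e x) w := quad_real_smul _ _ _
      rw [h2, inv_pow, hr, Real.sq_sqrt hq.le, inv_mul_cancel₀ hq.ne']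
    have h3 : w = r • (r⁻¹ • w) := by
      rw [smul_smul, mul_inv_cancel₀ hr0.ne', one_smul]
    have h4 := hb e x _ hx h1
    calc |Yd h b (zs F) e (e x) w| = |Yd h b (zs F) e (e x) (r • (r⁻¹ • w))| := by rw [← h3]
      _ = r * |Yd h b (zs F) e (e x) (r⁻¹ • w)| := by
        rw [Yd_zs_smul hF hx, abs_mul, abs_of_pos hr0]
      _ ≤ r * B := mul_le_mul_of_nonneg_left h4 hr0.le
      _ = B * r := mul_comm _ _

/-- a function with small vertical derivative, vanishing on the zero section -/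
lemma abs_le_of_Wd {G : Chart n X → Cm n → Cm n → ℝ} (hh : IsHermitian h) (hG : SmTFun G) {C : ℝ}
    (hC : 0 ≤ C)
    (hW : ∀ e x w v, At e x → |Wd G e (e x) w v| ≤ C * nq h e (e x) w * √(nq h e (e x) v))
    (h0 : ∀ e z, G e z 0 = 0) (hx : At e x) (w : Cm n) :
    |G e (e x) w| ≤ C * nq h e (e x) w * √(nq h e (e x) w) := by
  set f : ℝ → ℝ := fun t => G e (e x) (t • w) with hf
  have hd : ∀ t : ℝ, HasDerivAt f (Wd G e (e x) (t • w) w) t := by
    intro t
    have h1 : DifferentiableAt ℝ (fun p : Cm n × Cm n => G e p.1 p.2) (e x, t • w) :=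
      (hG.smooth e x _ hx).differentiableAt (by simp)
    have h2 : HasDerivAt (fun t : ℝ => ((e x, t • w) : Cm n × Cm n)) (0, w) t := by
      refine (hasDerivAt_const t (e x)).prodMk ?_
      simpa using (hasDerivAt_id t).smul_const w
    exact h1.hasFDerivAt.comp_hasDerivAt t h2
  have hb : ∀ t ∈ Set.Ico (0 : ℝ) 1, ‖Wd G e (e x) (t • w) w‖ ≤
      C * nq h e (e x) w * √(nq h e (e x) w) := by
    intro t ht
    rw [Real.norm_eq_abs]
    refine (hW e x _ _ hx).trans ?_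
    have h1 : nq h e (e x) (t • w) = t ^ 2 * nq h e (e x) w := quad_real_smul _ _ _
    rw [h1]
    have h2 : t ^ 2 ≤ 1 := by nlinarith [ht.1, ht.2]
    have h3 := nq_nonneg hh hx w
    gcongr
    nlinarith
  have h1 := norm_image_sub_le_of_norm_deriv_le_segment_01' (f := f)
    (fun t _ => (hd t).hasDerivWithinAt) hb
  simp only [hf, one_smul, zero_smul, h0, sub_zero, Real.norm_eq_abs] at h1
  exact h1

theorem n3 (n : ℕ) (X : Type) [TopologicalSpace X] [T2Space X] [CompactSpace X]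
    [ChartedSpace (Cm n) X] [IsManifold 𝓘(ℂ, Cm n) ω X] : N3 n X := by
  intro h hh hCo
  obtain ⟨c, C, F₁, F₂, hc, hC, hF₁, hF₂, hW₁, hW₂, hco⟩ := hCo
  obtain ⟨𝒞⟩ := Cov.nonempty (Cm n) X
  obtain ⟨B₁, hB₁, hb₁⟩ := exists_Yd_zs_bound 𝒞 hh hF₁ 1
  obtain ⟨B₂, hB₂, hb₂⟩ := exists_Yd_zs_bound 𝒞 hh hF₂ Complex.I
  set B := B₁ + B₂ with hBdef
  have hB : 0 ≤ B := add_nonneg hB₁ hB₂
  have hG₁ : SmTFun fun e z w => 2 * (F₁ e z w - zs F₁ e z w) :=
    (hF₁.sub (zs_smTFun hF₁)).const_mul 2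
  have hG₂ : SmTFun fun e z w => 2 * (F₂ e z w - zs F₂ e z w) :=
    (hF₂.sub (zs_smTFun hF₂)).const_mul 2
  have hC' : 0 ≤ 2 * C + 2 * B + B ^ 2 := by positivity
  have key : ∀ {F : Chart n X → Cm n → Cm n → ℝ}, SmTFun F →
      (∀ e x w v, At e x → |Wd F e (e x) w v| ≤ C * nq h e (e x) w * √(nq h e (e x) v)) →
      ∀ e x w v, At e x → |Wd (fun e z w => 2 * (F e z w - zs F e z w)) e (e x) w v| ≤
        (2 * C + 2 * B + B ^ 2) * nq h e (e x) w * √(nq h e (e x) v) := by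
    intro F hF hW e x w v hx
    rw [Wd_corr hF hx, abs_mul, abs_of_pos (by norm_num : (0 : ℝ) < 2)]
    have h1 := hW e x w v hx
    have h2 := nq_nonneg hh hx w
    have h3 : 0 ≤ (2 * B + B ^ 2) * nq h e (e x) w * √(nq h e (e x) v) := by positivity
    nlinarith
  refine ⟨2 * c, 2 * C + 2 * B + B ^ 2, _, _, by positivity, hC', hG₁, hG₂, key hF₁ hW₁,
    key hF₂ hW₂, fun e x w hx => abs_le_of_Wd hh hG₁ hC' (key hF₁ hW₁) (by simp [zs]) hx w,
    fun e x w hx => abs_le_of_Wd hh hG₂ hC' (key hF₂ hW₂) (by simp [zs]) hx w,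
    fun e x w hx => ?_⟩
  have h1 := hco e x w hx
  have h2 := hb₁ e x w hx
  have h3 := hb₂ e x w hx
  rw [Yd_corr hF₁ hx, Yd_corr hF₂ hx]
  have h4 := (abs_le.1 h2).2
  have h5 := (abs_le.1 h3).2
  have hN := nq_nonneg hh hx w
  set N := nq h e (e x) w
  have h6 : √N ≤ 1 + N := by
    have := Real.sq_sqrt hN
    nlinarith [Real.sqrt_nonneg N, sq_nonneg (√N - 1)]
  have h7 : B * √N ≤ B * (1 + N) := mul_le_mul_of_nonneg_left h6 hB
  have h8 : B * N ≤ B ^ 2 / 2 + N ^ 2 / 2 := by nlinarith [sq_nonneg (B - N)]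
  nlinarith

end Vale.Agent.P272.K.AMP.NF
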